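import Vale.Agent.P144Q.A.Glob
import Vale.Agent.P144.H436.Path2

/-!
The limit theorem for spinors with bounded masses in general domains.
-/

namespace Vale.Agent.P144Q.A

open Filter Topology Complex Metric Vale.Agent.P144
open Vale.Agent.P144.H170 hiding RelB RelB.relOn sum_sq_box H_bounds GLim resZ_of resO_of jA jB jC jD
open Vale.Agent.P144.H436 (nn)

section

variable {ι κ κ' : Type} [Fintype κ] [Fintype κ'] {r : κ → ι → Site} {v : κ' → ι → Site}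
  {ζ : κ → ℂ} {ω : κ' → ℂ} {a : ι → ℝ} {N : ι → Finset Site} {A B C E Hs Hf : ι → Pt → ℝ}

/-- Near `z` the sites differ from a site with another limit. -/
theorem ne_nf {l : Filter ι} {w : ι → Site} {c z : ℂ}
    (hw : Tendsto (fun k => pt (a k) (w k)) l (𝓝 c)) (hz : z ≠ c) :
    ∀ᶠ kx in nf l a z, kx.2 ≠ w kx.1 := by
  have h := (tendsto_pt_nf (l := l) (a := a) z).sub (hw.comp (tendsto_fst_nf (l := l) (a := a) z))
  filter_upwards [h.eventually_ne (sub_ne_zero.2 hz)] with kx h1 h2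
  apply h1
  simp only [Function.comp_apply, h2, sub_self]

/-- The spinors are regular near an unmarked point. -/
theorem reg_nf {l : Filter ι} (hr : ∀ p, Tendsto (fun k => pt (a k) (r p k)) l (𝓝 (ζ p)))
    (hv : ∀ q, Tendsto (fun k => pt (a k) (v q k)) l (𝓝 (ω q)))
    (hS : ∀ᶠ k in l, AL.Spr (N k) (tauF fun p => r p k) (theF fun q => v q k)
      (A k) (B k) (C k) (E k))
    (hH : ∀ᶠ k in l, AL.IsH (N k) (A k) (B k) (C k) (E k) (Hs k) (Hf k)) {z : ℂ}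
    (hz : z ∉ Mk ζ ω) : ∀ᶠ kx in nf l a z, Reg (N kx.1) (Hs kx.1) (Hf kx.1) kx.2 := by
  have e1 : ∀ᶠ kx in nf l a z, ∀ p, kx.2 ≠ r p kx.1 :=
    eventually_all.2 fun p => ne_nf (hr p) ((notMem_Mk.1 hz).1 p)
  have e2 : ∀ᶠ kx in nf l a z, ∀ p, kx.2 ≠ v p kx.1 :=
    eventually_all.2 fun p => ne_nf (hv p) ((notMem_Mk.1 hz).2 p)
  have e3 := (tendsto_fst_nf (l := l) (a := a) z).eventually (hS.and hH)
  exact ((e1.and e2).and e3).mono fun kx k => reg_of k.2.1 k.2.2 k.1.1 k.1.2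

theorem resZ_of {W : Set ℂ} (hW : IsOpen W) (hζ : ∀ p, ζ p ∈ W) {q : ℂ → ℂ}
    {h : ℂ → ℝ} {M : ℝ} (hM : 0 ≤ M)
    (hqd : DifferentiableOn ℂ q W) (hHD : ∀ z ∈ W \ Mk ζ ω, HD h (gq ζ ω q) z)
    (hup' : ∀ z ∈ W \ Mk ζ ω, h z ≤ M * ∑ p, gb z (ω p)) (p : κ)
    (hp1 : ∀ p' ≠ p, ζ p' ≠ ζ p) (hp2 : ∀ p', ω p' ≠ ζ p) :
    ((⟨-1 / 2, 1 / 2⟩ : ℂ) * (q (ζ p) ^ 2 / PZ ζ ω p (ζ p))).im = 0 ∧
    0 ≤ ((⟨-1 / 2, 1 / 2⟩ : ℂ) * (q (ζ p) ^ 2 / PZ ζ ω p (ζ p))).re := by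
  classical
  obtain ⟨R, hR, hRD, hRM⟩ := exists_isolated (ζ := ζ) (ω := ω) hW (hζ p)
  have hin : ∀ z ∈ ball (ζ p) R, z ∈ W := fun z hz => hRD (by
    rw [mem_ball] at hz; rw [mem_closedBall]; linarith)
  have hout : ∀ z ∈ ball (ζ p) R, z ≠ ζ p → z ∉ Mk ζ ω := by
    intro z hz hzp hzM
    have := hRM z hzM hzp
    rw [mem_ball, dist_eq_norm, norm_sub_rev] at hz
    linarith
  have key := U3_of (ζ := ζ) (ω := ω) (q := q) (h := h) (P := PZ ζ ω p) (c := ζ p) hR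
    (PP_eqZ p) (PZ_diff p) (fun z hz => ?_) (hqd.mono hin)
    (fun z hz hzp => hHD z ⟨hin z hz, hout z hz hzp⟩)
  · refine ⟨key.1, key.2.1 ⟨M * ∑ q : κ', (Real.log (16 / R ^ 2) + 1) / (4 * Real.log 2),
      fun z hz hzp => (hup' z ⟨hin z hz, hout z hz hzp⟩).trans ?_⟩⟩
    refine mul_le_mul_of_nonneg_left (Finset.sum_le_sum fun q _ => gb_le hR ?_) hM
    have h1 := hRM (ω q) (Or.inr ⟨q, rfl⟩) (hp2 q)
    rw [mem_ball, dist_eq_norm, norm_sub_rev] at hz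
    have h2 := norm_sub_le_norm_sub_add_norm_sub (ζ p) z (ω q)
    linarith
  · unfold PZ
    refine mul_ne_zero (Finset.prod_ne_zero_iff.2 fun p' hp' => sub_ne_zero.2 ?_)
      (Finset.prod_ne_zero_iff.2 fun p' _ => sub_ne_zero.2 ?_)
    · rintro rfl
      have h1 := hRM (ζ p') (Or.inl ⟨p', rfl⟩) (hp1 p' (Finset.mem_erase.1 hp').1)
      rw [mem_ball, dist_eq_norm, norm_sub_rev] at hz
      linarith
    · rintro rfl
      have h1 := hRM (ω p') (Or.inr ⟨p', rfl⟩) (hp2 p')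
      rw [mem_ball, dist_eq_norm, norm_sub_rev] at hz
      linarith

theorem resO_of {W : Set ℂ} (hW : IsOpen W) (hω : ∀ p, ω p ∈ W) {q : ℂ → ℂ}
    {h : ℂ → ℝ} {M : ℝ} (hM : 0 ≤ M)
    (hqd : DifferentiableOn ℂ q W) (hHD : ∀ z ∈ W \ Mk ζ ω, HD h (gq ζ ω q) z)
    (hlo' : ∀ z ∈ W \ Mk ζ ω, -h z ≤ M * ∑ p, gb z (ζ p)) (p : κ')
    (hp1 : ∀ p', ζ p' ≠ ω p) (hp2 : ∀ p' ≠ p, ω p' ≠ ω p) :
    ((⟨-1 / 2, 1 / 2⟩ : ℂ) * (q (ω p) ^ 2 / PO ζ ω p (ω p))).im = 0 ∧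
    ((⟨-1 / 2, 1 / 2⟩ : ℂ) * (q (ω p) ^ 2 / PO ζ ω p (ω p))).re ≤ 0 := by
  classical
  obtain ⟨R, hR, hRD, hRM⟩ := exists_isolated (ζ := ζ) (ω := ω) hW (hω p)
  have hin : ∀ z ∈ ball (ω p) R, z ∈ W := fun z hz => hRD (by
    rw [mem_ball] at hz; rw [mem_closedBall]; linarith)
  have hout : ∀ z ∈ ball (ω p) R, z ≠ ω p → z ∉ Mk ζ ω := by
    intro z hz hzp hzM
    have := hRM z hzM hzp
    rw [mem_ball, dist_eq_norm, norm_sub_rev] at hz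
    linarith
  have key := U3_of (ζ := ζ) (ω := ω) (q := q) (h := h) (P := PO ζ ω p) (c := ω p) hR
    (PP_eqO p) (PO_diff p) (fun z hz => ?_) (hqd.mono hin)
    (fun z hz hzp => hHD z ⟨hin z hz, hout z hz hzp⟩)
  · refine ⟨key.1, key.2.2 ⟨M * ∑ q : κ, (Real.log (16 / R ^ 2) + 1) / (4 * Real.log 2),
      fun z hz hzp => ?_⟩⟩
    have h0 := hlo' z ⟨hin z hz, hout z hz hzp⟩
    have h5 : M * ∑ p, gb z (ζ p) ≤ M * ∑ q : κ, (Real.log (16 / R ^ 2) + 1) /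
        (4 * Real.log 2) := by
      refine mul_le_mul_of_nonneg_left (Finset.sum_le_sum fun q _ => gb_le hR ?_) hM
      have h1 := hRM (ζ q) (Or.inl ⟨q, rfl⟩) (hp1 q)
      rw [mem_ball, dist_eq_norm, norm_sub_rev] at hz
      have h2 := norm_sub_le_norm_sub_add_norm_sub (ω p) z (ζ q)
      linarith
    linarith
  · unfold PO
    refine mul_ne_zero (Finset.prod_ne_zero_iff.2 fun p' _ => sub_ne_zero.2 ?_)
      (Finset.prod_ne_zero_iff.2 fun p' hp' => sub_ne_zero.2 ?_)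
    · rintro rfl
      have h1 := hRM (ζ p') (Or.inl ⟨p', rfl⟩) (hp1 p')
      rw [mem_ball, dist_eq_norm, norm_sub_rev] at hz
      linarith
    · rintro rfl
      have h1 := hRM (ω p') (Or.inr ⟨p', rfl⟩) (hp2 p' (Finset.mem_erase.1 hp').1)
      rw [mem_ball, dist_eq_norm, norm_sub_rev] at hz
      linarith

/-- **The limit theorem.** -/
theorem glim_exists (Ω : Dom) {l : Ultrafilter ι} (ha : Tendsto a l (𝓝[>] 0))
    (hN : Appr Ω.D (l : Filter ι) a N)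
    (hr : ∀ p, Tendsto (fun k => pt (a k) (r p k)) l (𝓝 (ζ p)))
    (hv : ∀ q, Tendsto (fun k => pt (a k) (v q k)) l (𝓝 (ω q)))
    (hζ : ∀ p, ζ p ∈ Ω.D) (hω : ∀ q, ω q ∈ Ω.D)
    (hS : ∀ᶠ k in l, AL.Spr (N k) (tauF fun p => r p k) (theF fun q => v q k)
      (A k) (B k) (C k) (E k))
    (hH : ∀ᶠ k in l, AL.IsH (N k) (A k) (B k) (C k) (E k) (Hs k) (Hf k)) {M : ℝ}
    (hM1 : ∀ᶠ k in l, ∀ T : Finset Site, ∑ w ∈ T, |AL.lap (Hs k) w| ≤ M)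
    (hM2 : ∀ᶠ k in l, ∀ T : Finset Site, ∑ w ∈ T, |AL.lap (Hf k) w| ≤ M) :
    ∃ q h, GLim Ω (l : Filter ι) a r v ζ ω A B C E Hs Hf q h := by
  have hM : 0 ≤ M := by
    obtain ⟨k, hk⟩ := hM1.exists
    simpa using hk ∅
  have ha0 : ∀ᶠ k in l, 0 < a k := ha.eventually self_mem_nhdsWithin
  have hn := H436.nn_lim ha
  have dd : ∀ z ∈ Ω.D \ Mk ζ ω, z ∈ Dia \ Mk ζ ω := fun z hz => ⟨Ω.dia hz.1, hz.2⟩
  have hMkD : ∀ z ∈ Mk ζ ω, z ∈ Ω.D := by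
    rintro z (⟨p, rfl⟩ | ⟨p, rfl⟩)
    · exact hζ p
    · exact hω p
  -- relations
  have hrel : RelB l a N Set.univ r v (fun k x => (√(a k))⁻¹ * A k x)
      (fun k x => (√(a k))⁻¹ * B k x) (fun k x => (√(a k))⁻¹ * C k x)
      (fun k x => (√(a k))⁻¹ * E k x) := by
    intro z _
    filter_upwards [ev_nf_of (l := l) (a := a) (z := z) hS] with kx h
    exact (SRel.of_spr h kx.2.1 kx.2.2).smul _
  -- ℓ² bounds
  have hbox : ∀ᶠ k in l, ∀ c n, ∑ x ∈ bx c n, (A k x ^ 2 + B k x ^ 2 + C k x ^ 2 + E k x ^ 2) ≤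
      1152 * M * (n + 2) := by
    filter_upwards [hS, hH, hM1, hM2] with k k1 k2 k3 k4 c n
    exact sum_sq_box k1 k2 k3 k4 c n
  have l2 : ∀ X : ι → Pt → ℝ, (∀ k x, X k x ^ 2 ≤ A k x ^ 2 + B k x ^ 2 + C k x ^ 2 + E k x ^ 2) →
      ∀ z : ℂ, ∀ ρ > 0, L2ball l a z ρ (8 * (1152 * M) * ρ) (fun k x => (√(a k))⁻¹ * X k x) := by
    intro X hX z ρ hρ
    refine l2_of_box ha (by positivity) ?_ z hρ
    filter_upwards [hbox] with k hk c n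
    exact (Finset.sum_le_sum fun x _ => hX k x).trans (hk c n)
  have l2A := l2 A fun k x => by nlinarith [sq_nonneg (B k x), sq_nonneg (C k x), sq_nonneg (E k x)]
  have l2B := l2 B fun k x => by nlinarith [sq_nonneg (A k x), sq_nonneg (C k x), sq_nonneg (E k x)]
  have l2C := l2 C fun k x => by nlinarith [sq_nonneg (A k x), sq_nonneg (B k x), sq_nonneg (E k x)]
  have l2E := l2 E fun k x => by nlinarith [sq_nonneg (A k x), sq_nonneg (B k x), sq_nonneg (C k x)]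
  have lsq : ∀ X : ι → Pt → ℝ, (∀ z : ℂ, ∀ ρ > 0, L2ball l a z ρ (8 * (1152 * M) * ρ) X) →
      ∀ z ∈ Ω.D, ∀ ρ > 0, ρ ≤ 1 → closedBall z ρ ⊆ Ω.D →
        L2ball l a z ρ (8 * (1152 * M) * √ρ) X := by
    intro X hX z _ ρ hρ hρ1 _
    refine (hX z ρ hρ).mono (mul_le_mul_of_nonneg_left ?_ (by positivity))
    exact Real.le_sqrt_of_sq_le (by nlinarith)
  have hrelOn : RelOn l a (Ω.D \ Mk ζ ω) r v (fun k x => (√(a k))⁻¹ * A k x)
      (fun k x => (√(a k))⁻¹ * B k x) (fun k x => (√(a k))⁻¹ * C k x)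
      (fun k x => (√(a k))⁻¹ * E k x) := fun z hz =>
    hrel.relOn ha hN z ⟨Set.mem_univ z, hz.1⟩
  obtain ⟨q, hqd, hslim⟩ := slim_ext ha Ω.op hr hv hrelOn (lsq _ l2B) (lsq _ l2C)
  -- bounds of H
  have hbd : ∀ᶠ k in l, ∀ x, Hs k x ≤ M * ∑ q, H436.green (dia (nn (a k))) (v q k) x ∧
      -Hf k x ≤ M * ∑ p, H436.green (dia (nn (a k))) (r p k) x ∧ Hf k x ≤ Hs k x := by
    filter_upwards [hS, hH, hM1, hM2, hN.big ha Ω.small 1] with k k1 k2 k3 k4 k5 x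
    exact H_bounds k5 k1 k2 k3 k4 x
  have hgv : ∀ z ∈ Dia \ Mk ζ ω, ∀ᶠ kx in nf l a z, M * ∑ q, H436.green (dia (nn (a kx.1))) (v q kx.1)
      kx.2 ≤ M * ∑ q, gb z (ω q) := by
    intro z hz
    have h1 : ∀ᶠ kx in nf l a z, ∀ q, H436.green (dia (nn (a kx.1))) (v q kx.1) kx.2 ≤ gb z (ω q) := by
      rw [eventually_all]
      intro q
      exact green_near ha hn (hv q) (mem_dia_ev ha hn (Ω.dia (hω q)) (hv q)) hz.1 ((notMem_Mk.1 hz.2).2 q)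
    filter_upwards [h1] with kx h2
    exact mul_le_mul_of_nonneg_left (Finset.sum_le_sum fun q _ => h2 q) hM
  have hgr : ∀ z ∈ Dia \ Mk ζ ω, ∀ᶠ kx in nf l a z, M * ∑ p, H436.green (dia (nn (a kx.1))) (r p kx.1)
      kx.2 ≤ M * ∑ p, gb z (ζ p) := by
    intro z hz
    have h1 : ∀ᶠ kx in nf l a z, ∀ q, H436.green (dia (nn (a kx.1))) (r q kx.1) kx.2 ≤ gb z (ζ q) := by
      rw [eventually_all]
      intro q
      exact green_near ha hn (hr q) (mem_dia_ev ha hn (Ω.dia (hζ q)) (hr q)) hz.1 ((notMem_Mk.1 hz.2).1 q)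
    filter_upwards [h1] with kx h2
    exact mul_le_mul_of_nonneg_left (Finset.sum_le_sum fun q _ => h2 q) hM
  have hup : ∀ z ∈ Dia \ Mk ζ ω, ∀ᶠ kx in nf l a z, Hs kx.1 kx.2 ≤ M * ∑ q, gb z (ω q) := by
    intro z hz
    filter_upwards [hgv z hz, ev_nf_of (l := l) (a := a) (z := z) hbd] with kx k1 k2
    exact (k2 kx.2).1.trans k1
  have hlo : ∀ z ∈ Dia \ Mk ζ ω, ∀ᶠ kx in nf l a z, -Hf kx.1 kx.2 ≤ M * ∑ q, gb z (ζ q) := by
    intro z hz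
    filter_upwards [hgr z hz, ev_nf_of (l := l) (a := a) (z := z) hbd] with kx k1 k2
    exact (k2 kx.2).2.1.trans k1
  -- the limit h
  have hHon : HOn l a (Ω.D \ Mk ζ ω) (fun k x => (√(a k))⁻¹ * A k x)
      (fun k x => (√(a k))⁻¹ * B k x) (fun k x => (√(a k))⁻¹ * C k x)
      (fun k x => (√(a k))⁻¹ * E k x) Hs Hf := by
    intro z _
    filter_upwards [ev_nf_of (l := l) (a := a) (z := z) hH, apos_nf ha z] with kx h h0
    have e : ∀ y : ℝ, a kx.1 * ((√(a kx.1))⁻¹ * y) ^ 2 = y ^ 2 := by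
      intro y
      rw [mul_pow, inv_pow, Real.sq_sqrt h0.le]
      field_simp
    obtain ⟨k, i, j⟩ := kx
    simp only [e, Prod.mk_add_mk, add_zero]
    exact ⟨h.a i j, h.b i j, h.c i j, h.d i j⟩
  have hbb : ∀ z ∈ Ω.D \ Mk ζ ω, ∃ K, ∀ᶠ k in l, |Hs k (fl (a k) z)| ≤ K := by
    intro z hz
    have h1 := (hup z (dd z hz)).and ((hlo z (dd z hz)).and (ev_nf_of (l := l) (a := a) (z := z) hbd))
    obtain ⟨ρ, hρ, h2⟩ := (ev_nf (P := fun k x => Hs k x ≤ M * ∑ q, gb z (ω q) ∧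
      -Hf k x ≤ M * ∑ q, gb z (ζ q) ∧ ∀ x, Hs k x ≤ M * ∑ q, H436.green (dia (nn (a k))) (v q k) x ∧
      -Hf k x ≤ M * ∑ p, H436.green (dia (nn (a k))) (r p k) x ∧ Hf k x ≤ Hs k x)).1 h1
    have ha1 : ∀ᶠ k in l, a k < ρ / 2 :=
      (ha.mono_right nhdsWithin_le_nhds).eventually (gt_mem_nhds (by positivity))
    refine ⟨|M * ∑ q, gb z (ω q)| + |M * ∑ q, gb z (ζ q)|, ?_⟩
    filter_upwards [h2, ha0, ha1] with k k1 k2 k3
    obtain ⟨k4, k5, k6⟩ := k1 (fl (a k) z) ((pt_fl_norm k2 z).trans (by linarith))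
    have k7 := (k6 (fl (a k) z)).2.2
    rw [abs_le]
    constructor
    · linarith [le_abs_self (M * ∑ q, gb z (ζ q)), abs_nonneg (M * ∑ q, gb z (ω q))]
    · linarith [le_abs_self (M * ∑ q, gb z (ω q)), abs_nonneg (M * ∑ q, gb z (ζ q))]
  obtain ⟨h, chs, chf, hder⟩ := hlim_exists ha (Ω.op.sdiff (Mk_closed ζ ω)) hr hv
    (fun z hz => hz.2) hslim hHon hbb
  have hHD : ∀ z ∈ Ω.D \ Mk ζ ω, HD h (gq ζ ω q) z := fun z hz => (hder z hz).hasFDerivAt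
  have chs' := cconv_iff.1 chs
  have chf' := cconv_iff.1 chf
  have hup' : ∀ z ∈ Ω.D \ Mk ζ ω, h z ≤ M * ∑ p, gb z (ω p) := by
    intro z hz
    have := nf_neBot (l := (l : Filter ι)) ha z
    exact le_of_tendsto (chs' z hz) (hup z (dd z hz))
  have hlo' : ∀ z ∈ Ω.D \ Mk ζ ω, -h z ≤ M * ∑ p, gb z (ζ p) := by
    intro z hz
    have := nf_neBot (l := (l : Filter ι)) ha z
    exact le_of_tendsto (chf' z hz).neg (hlo z (dd z hz))
  have hD : HData Ω.D (l : Filter ι) a N Hs Hf (Mk ζ ω) h := by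
    refine ⟨inferInstance, ha, hN, (Mk_finite ζ ω).isCompact, hMkD, ?_, fun z hz => ?_,
      fun z hz => ?_, chs, chf⟩
    · filter_upwards [hS, hH] with k k1 k2
      exact HB.of_spr k1 k2
    · exact reg_nf hr hv hS hH hz.2
    · refine ⟨max (M * ∑ q, gb z (ω q)) (M * ∑ q, gb z (ζ q)), ?_⟩
      filter_upwards [hup z hz, hlo z hz] with kx k1 k2
      exact ⟨k1.trans (le_max_left _ _), k2.trans (le_max_right _ _)⟩
  refine ⟨q, h, ⟨hqd, hslim, chs, chf, hHD, ⟨M, hM, hup'⟩, ⟨M, hM, hlo'⟩,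
    Ω.bd hD _ (fun z hz => ?_) hHD, resZ_of Ω.op hζ hM hqd hHD hup',
    resO_of Ω.op hω hM hqd hHD hlo'⟩⟩
  exact (((hqd.differentiableAt (Ω.op.mem_nhds hz.1)).pow 2).div (PP_diff z)
    (PP_ne hz.2)).differentiableWithinAt

end

end Vale.Agent.P144Q.A
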