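import Vale.Agent.P144Q.Basic
import Vale.Agent.P144P.All

/-!
The normalisation of the disorder correlations in general domains.
-/

namespace Vale.Agent.P144Q.A

open Finset Filter Topology Metric Vale.Agent.P144 Vale.Agent.P144.AL Vale.Agent.P144P
open Vale.Agent.P144.H170 (Pt pt bx mem_bx pt_fl_norm)
open Vale.Agent.P144.H436 (MM)

/-! ### translations -/

/-- The translate of a finite set. -/
def tr (t : Site) (Λ : Finset Site) : Finset Site := Λ.image fun x => x + t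

theorem mem_tr {t x : Site} {Λ : Finset Site} : x ∈ tr t Λ ↔ x - t ∈ Λ := by
  unfold tr
  rw [mem_image]
  constructor
  · rintro ⟨y, hy, rfl⟩; rwa [add_sub_cancel_right]
  · intro h; exact ⟨x - t, h, sub_add_cancel x t⟩

theorem tr_tr (t : Site) (Λ : Finset Site) : tr t (tr (-t) Λ) = Λ := by
  ext x
  rw [mem_tr, mem_tr, sub_neg_eq_add, sub_add_cancel]

theorem tr_tr' (t : Site) (Λ : Finset Site) : tr (-t) (tr t Λ) = Λ := by
  ext x
  rw [mem_tr, mem_tr, sub_neg_eq_add, add_sub_cancel_right]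

theorem WW_tr (t : Site) (Λ : Finset Site) (a : Site → ℝ) (s : Site → ℝ) :
    WW (tr t Λ) (fun x => a (x - t)) 1 (fun x => s (x - t)) = WW Λ a 1 s := by
  have e1 : ∀ x : Site, (x.1 + 1, x.2) - t = ((x - t).1 + 1, (x - t).2) := fun x => by
    ext <;> simp; ring
  have e2 : ∀ x : Site, (x.1, x.2 + 1) - t = ((x - t).1, (x - t).2 + 1) := fun x => by
    ext <;> simp; ring
  unfold WW
  congr 1
  · refine prod_nbij' (fun x => x - t) (fun x => x + t) ?_ ?_ ?_ ?_ ?_
    · intro x hx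
      rwa [mem_hor, mem_tr, mem_tr, e1, ← mem_hor] at hx
    · intro x hx
      rwa [mem_hor, mem_tr, mem_tr, e1, add_sub_cancel_right, ← mem_hor]
    · intro x _; exact sub_add_cancel x t
    · intro x _; exact add_sub_cancel_right x t
    · intro x _
      simp only [e1]
  · refine prod_nbij' (fun x => x - t) (fun x => x + t) ?_ ?_ ?_ ?_ ?_
    · intro x hx
      rwa [mem_ver, mem_tr, mem_tr, e2, ← mem_ver] at hx
    · intro x hx
      rwa [mem_ver, mem_tr, mem_tr, e2, add_sub_cancel_right, ← mem_ver]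
    · intro x _; exact sub_add_cancel x t
    · intro x _; exact add_sub_cancel_right x t
    · intro x _
      simp only [e2, Pi.one_apply]

theorem cutS_tr (t : Site) (R : Multiset Site) (x : Site) :
    cutS (R.map fun r => r + t) x = cutS R (x - t) := by
  unfold cutS
  rw [Multiset.map_map]
  congr 1
  refine Multiset.map_congr rfl fun r _ => ?_
  unfold cut1
  simp only [Function.comp_apply, Prod.fst_add, Prod.snd_add, Prod.fst_sub, Prod.snd_sub]
  exact if_congr (by lia) rfl rfl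

theorem QQ_tr (t : Site) (Λ : Finset Site) (R : Multiset Site) :
    AL.QQ (tr t Λ) (R.map fun r => r + t) 0 = AL.QQ Λ R 0 := by
  unfold AL.QQ NG
  refine sum_nbij' (tr (-t)) (tr t) ?_ ?_ ?_ ?_ ?_
  · intro T hT
    rw [mem_powerset] at hT ⊢
    intro x hx
    have := mem_tr.1 (hT (mem_tr.1 hx))
    rwa [sub_neg_eq_add, add_sub_cancel_right] at this
  · intro T hT
    rw [mem_powerset] at hT ⊢
    exact image_subset_image hT
  · intro T _
    exact tr_tr t T
  · intro T _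
    exact tr_tr' t T
  · intro T _
    rw [spn_zero, spn_zero, one_mul, one_mul, ← WW_tr t Λ]
    congr 1
    · funext x
      exact cutS_tr t R x
    · funext x
      unfold tv
      simp only [mem_tr, sub_neg_eq_add, sub_add_cancel]

theorem MM_tr (t : Site) (Λ : Finset Site) (R : Multiset Site) :
    MM (tr t Λ) (R.map fun r => r + t) = MM Λ R := by
  unfold MM
  rw [QQ_tr, ← QQ_tr t Λ 0, Multiset.map_zero]

theorem MM_pos (Λ : Finset Site) (R : Multiset Site) : 0 < MM Λ R :=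
  div_pos (QQ_pos _ _) (QQ_pos _ _)

/-! ### clusters -/

/-- The disorder correlation of a cluster in a large diamond is almost minimal. -/
theorem cluster0 {n : ℕ} (hn : Even n) {δ : ℝ} (hδ : 0 < δ) : ∃ T : ℕ, ∀ (k N : ℕ)
    (u : Fin n → Site), 4 ≤ k → T * k ≤ N → (∀ i, u i ∈ bx 0 k) →
    (∀ i i', u i ∈ cnr (u i') → i = i') → ∀ Λ,
    (1 - δ) * MM (dia N) (fcs (srcs u)) ≤ MM Λ (fcs (srcs u)) := by
  classical
  obtain ⟨K, hK, hS⟩ := src pw
  set L := lbs (n := n) ([] : List (Fin 0)) [] with hL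
  obtain ⟨D, hD, hlip⟩ := Two.Pf_lip (α := Lb n 0) (B := √(1152 * 5586 * 2))
    (Real.sqrt_nonneg _) L.length
  have hD0 : 0 < D := by linarith
  set η : ℝ := min 1 (δ / D) with hη
  have hη0 : 0 < η := lt_min one_pos (by positivity)
  have hη1 : η ≤ 1 := min_le_left _ _
  have hη2 : D * η ≤ δ := by
    rw [mul_comm, ← le_div_iff₀ hD0]
    exact min_le_right _ _
  obtain ⟨T, hT, hC⟩ := score.at (ε := η ^ 2 / (2 * K)) (by positivity)
  refine ⟨max T 200, fun k N u hk hN hu hc Λ => ?_⟩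
  have hN1 : T * k ≤ N := le_trans (Nat.mul_le_mul_right k (le_max_left _ _)) hN
  have hN2 : 200 * k ≤ N := le_trans (Nat.mul_le_mul_right k (le_max_right _ _)) hN
  have hinj : Function.Injective u := fun i i' e => hc i i' (by rw [e]; exact mem_cnr.2 (Or.inl rfl))
  have hlat : Lat u (Fin.elim0 : Fin 0 → Site) Fin.elim0 k 1 :=
    ⟨hk, one_pos, by lia, hu, fun l => l.elim0, hinj, hn, fun _ l => l.elim0⟩
  have hsep : ∀ i, ∀ f ∈ fcs (srcs u), f ≠ u i → u i ∉ cnr f := fun i f hf hne hm => by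
    obtain ⟨i', rfl⟩ := (mem_srcs _).1 hf
    exact hne (by rw [hc i i' hm])
  have hsrc : ∀ z ∈ L, ∃ i, z = Lb.src i := by
    intro z hz
    simp only [hL, lbs, flat, List.flatMap_nil, List.map_nil, List.append_nil, List.mem_map] at hz
    obtain ⟨i, _, rfl⟩ := hz
    exact ⟨i, rfl⟩
  have hR : Ref u (Fin.elim0 : Fin 0 → Site) Fin.elim0 k N 1 K := by
    refine ⟨fun y hy => ?_, fun l => l.elim0⟩
    cases y with
    | tp c => exact absurd hy id
    | lo l => exact l.elim0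
    | hi l => exact l.elim0
    | src i =>
      show Ptw _ _ (K * 1)
      rw [mul_one]
      exact hS _ _ _ _ hk hN2 (nodup_srcs _ hinj) ((mem_srcs _).2 ⟨i, rfl⟩) (hsep i) hlat.rin
  have hs : ∀ M, N ≤ M → Sep M u (Fin.elim0 : Fin 0 → Site) := fun M hM =>
    ⟨fun i => by have := bx_l1 (hu i); lia, fun l => l.elim0, hinj, fun l => l.elim0,
      fun _ l => l.elim0⟩
  have hP : ∀ M, N ≤ M → |Pf (KK M u Fin.elim0 Fin.elim0) L - Pf (KK N u Fin.elim0 Fin.elim0) L| ≤
      D * η := fun M hM => by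
    refine (hlip L le_rfl _ _ η hη0.le hη1 fun x y hxy => ?_).2
    obtain ⟨i, rfl⟩ := hsrc x (hxy.subset (by simp))
    obtain ⟨i', rfl⟩ := hsrc y (hxy.subset (by simp))
    constructor
    · refine Real.abs_le_sqrt ?_
      have h1 := src_sum (N := N) (nodup_srcs _ hinj) ((mem_srcs _).2 ⟨i', rfl⟩) (hsep i')
        (fun f hf => by have := bx_l1 (hlat.rin f hf); lia) (u i) 0
      have h2 := (single_le_sum (f := fun x => (kf N (fcs (srcs u)) (u i', u i')).sq x)
        (fun x _ => Fld.sq_nn _ x) (H170.self_mem_bx (u i) 0)).trans h1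
      have e : KK N u (Fin.elim0 : Fin 0 → Site) Fin.elim0 (Lb.src i) (Lb.src i') =
          (kf N (fcs (srcs u)) (u i', u i')).A (u i) := by
        unfold AL.KK
        rw [show cn N u (Fin.elim0 : Fin 0 → Site) Fin.elim0 (Lb.src i) = (u i, u i) from rfl,
          Wf_Tl _ (bx_dia (hu i) (by lia))]
        simp only [wl, one_mul]
        rfl
      rw [e]
      unfold Fld.sq at h2
      generalize kf N (fcs (srcs u)) (u i', u i') = F at h2 ⊢
      push_cast at h2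
      nlinarith [sq_nonneg (F.B (u i)), sq_nonneg (F.C (u i)), sq_nonneg (F.E (u i))]
    · have h1 := hlat.dif hC hN1 (hN1.trans hM) hR hT (by positivity) hK.le one_pos one_pos
        (by simp) (x := Lb.src i) (y := Lb.src i') trivial trivial
      have e : η ^ 2 / (2 * K) * K * (1 + (1 : ℝ)⁻¹) *
          (sig 1 (Lb.src i : Lb n 0) * sig 1 (Lb.src i' : Lb n 0)) = η ^ 2 := by
        simp only [sig]
        field_simp
        norm_num
      rw [e] at h1
      exact abs_le_of_sq_le_sq h1 hη0.le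
  have hs1 : |SG [] (srcs u)| = 1 := by
    have := SG_sq [] (srcs u)
    rw [← abs_mul_abs_self] at this
    nlinarith [abs_nonneg (SG [] (srcs u))]
  set A : Finset Site := univ.map ⟨u, hinj⟩ with hA
  have hAv : A.val = fcs (srcs u) := by
    unfold fcs srcs
    rw [List.map_map]
    rfl
  have hrat := Two.ratio one_pos (A := A)
    (by rw [hA, card_map, card_univ, Fintype.card_fin]; exact hn)
    (δ := δ) (N := N) (fun x hx => by
      obtain ⟨i, _, rfl⟩ := mem_map.1 hx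
      exact bx_dia (hu i) (by lia))
    (fun M => SG [] (srcs u) * Pf (KK M u Fin.elim0 Fin.elim0) L) (fun M hM => by
      have e := base' (j := (Fin.elim0 : Fin 0 → Fin 2)) one_pos (hs M hM) (by lia)
        List.nodup_nil List.nodup_nil
      rw [List.map_nil, List.append_nil] at e
      rw [hAv, ← mul_assoc]
      refine Eq.trans ?_ e
      unfold fcor
      refine congrArg _ (funext fun σ => ?_)
      have := GG_eq (N := M) (u := u) ∅ σ
      rw [toList_empty] at this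
      rw [this, hA, prod_map]
      simp)
    (fun M hM => by
      rw [← mul_sub, abs_mul, hs1, one_mul]
      exact (hP M hM).trans hη2) Λ
  rwa [hAv] at hrat

/-- The disorder correlation of a cluster deep inside is almost minimal. -/
theorem cluster {n : ℕ} (hn : Even n) {δ : ℝ} (hδ : 0 < δ) (hδ1 : δ ≤ 1) : ∃ T : ℕ, ∀ (k : ℕ)
    (t : Site) (w : Fin n → Site) (Λ Λ' : Finset Site), 4 ≤ k → (∀ i, w i ∈ bx t k) →
    (∀ i i', w i ∈ bx (w i') 1 → i = i') → (∀ x ∈ bx t (T * k), x ∈ Λ) →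
    (1 - δ) * MM Λ (fcs (srcs w)) ≤ MM Λ' (fcs (srcs w)) := by
  obtain ⟨T, h⟩ := cluster0 hn hδ
  refine ⟨T, fun k t w Λ Λ' hk hw hc hΛ => ?_⟩
  have e : fcs (srcs w) = (fcs (srcs fun i => w i - t)).map fun r => r + t := by
    unfold fcs srcs
    simp [List.map_map, Function.comp_def]
  have h1 := h k (T * k) (fun i => w i - t) hk le_rfl (fun i => by
    have := hw i
    rw [mem_bx] at this ⊢
    simp only [Prod.fst_sub, Prod.snd_sub, Prod.fst_zero, Prod.snd_zero]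
    lia) (fun i i' hi => hc i i' (by
      rw [mem_bx]
      rcases mem_cnr.1 hi with e | e | e | e <;>
        simp only [Prod.ext_iff, Prod.fst_sub, Prod.snd_sub] at e <;> lia)) (tr (-t) Λ')
  rw [← MM_tr t (tr (-t) Λ'), tr_tr, ← MM_tr t (dia _), ← e] at h1
  refine le_trans (mul_le_mul_of_nonneg_left (H436.MM_anti (fun x hx => hΛ x ?_) _)
    (by linarith)) h1
  have := mem_tr.1 hx
  rw [show x - t = (x.1 - t.1, x.2 - t.2) from rfl, mem_dia] at this
  rw [mem_bx]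
  have h2 := abs_nonneg (x.1 - t.1)
  have h3 := abs_nonneg (x.2 - t.2)
  have h4 := abs_le.1 (show |x.1 - t.1| ≤ ((T * k : ℕ) : ℤ) by lia)
  have h5 := abs_le.1 (show |x.2 - t.2| ≤ ((T * k : ℕ) : ℤ) by lia)
  lia

theorem lim_of_mul {ι : Type} {l : Filter ι} [l.NeBot] {f : ι → ℝ}
    (h : ∀ δ : ℝ, 0 < δ → δ ≤ 1 / 2 → ∃ c > 0, ∀ᶠ a in l,
      (1 - δ) ^ 2 * c ≤ f a ∧ (1 - δ) ^ 2 * f a ≤ c) : ∃ g > 0, Tendsto f l (𝓝 g) := by
  obtain ⟨c₀, hc₀, h0⟩ := h (1 / 2) (by norm_num) le_rfl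
  obtain ⟨g, hg⟩ := lim_of_near (l := l) (f := f) fun ε hε => by
    have h1 : 0 < min (1 / 2) (ε / (32 * c₀)) := lt_min (by norm_num) (by positivity)
    have h2 := min_le_left (1 / 2) (ε / (32 * c₀))
    have h3 := min_le_right (1 / 2) (ε / (32 * c₀))
    generalize min (1 / 2) (ε / (32 * c₀)) = δ at h1 h2 h3
    rw [le_div_iff₀ (by positivity)] at h3
    obtain ⟨c, hc, h4⟩ := h δ h1 h2
    refine ⟨c, ?_⟩
    filter_upwards [h0, h4] with a ⟨k1, k2⟩ ⟨k3, k4⟩
    have k5 : f a ≤ 4 * c₀ := by linarith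
    have k6 : 0 ≤ f a := by linarith
    have k7 : 1 / 4 ≤ (1 - δ) ^ 2 := by nlinarith
    have k8 : c ≤ 16 * c₀ := by nlinarith
    have k9 : 1 - 2 * δ ≤ (1 - δ) ^ 2 := by nlinarith
    rw [abs_le]
    constructor <;> nlinarith
  refine ⟨g, ?_, hg⟩
  have := ge_of_tendsto hg (h0.mono fun a k => k.1)
  linarith

theorem bx_fl {a L : ℝ} (ha : 0 < a) {z w : ℂ} (h : ‖z - w‖ ≤ L) :
    fl a z ∈ bx (fl a w) (⌈L / a⌉₊ + 1) := by
  have key : ∀ s t : ℝ, |s - t| ≤ L → ⌊s / a⌋ ≤ ⌊t / a⌋ + ((⌈L / a⌉₊ + 1 : ℕ) : ℤ) := by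
    intro s t hst
    have h1 : s / a ≤ t / a + L / a := by
      rw [← add_div]
      exact div_le_div_of_nonneg_right (by linarith [(abs_le.1 hst).2]) ha.le
    have h2 : (⌊s / a⌋ : ℝ) ≤ ((⌊t / a⌋ + ((⌈L / a⌉₊ + 1 : ℕ) : ℤ) : ℤ) : ℝ) := by
      push_cast
      linarith [Int.floor_le (s / a), Int.lt_floor_add_one (t / a), Nat.le_ceil (L / a)]
    exact_mod_cast h2
  have r := (Complex.abs_re_le_norm _).trans h
  have i := (Complex.abs_im_le_norm _).trans h
  rw [Complex.sub_re] at r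
  rw [Complex.sub_im] at i
  have k1 := key _ _ r
  have k2 := key w.re z.re (by rwa [abs_sub_comm] at r)
  have k3 := key _ _ i
  have k4 := key w.im z.im (by rwa [abs_sub_comm] at i)
  rw [mem_bx]
  unfold fl
  simp only
  lia

/-- A small cluster of points. -/
theorem pts (n : ℕ) (z : ℂ) {L : ℝ} (hL : 0 < L) : ∃ (y : Fin n → ℂ) (s : ℝ), 0 < s ∧
    (∀ i, ‖y i - z‖ ≤ L) ∧ ∀ i i', ‖y i - y i'‖ < s → i = i' := by
  have hs0 : 0 < L / (n + 1) := by positivity
  have hL1 : L / (n + 1) * (n + 1) = L := by field_simp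
  generalize L / (n + 1) = s at hs0 hL1
  refine ⟨fun i => z + ((s * (i : ℕ) : ℝ) : ℂ), s, hs0, fun i => ?_, fun i i' h => ?_⟩
  · rw [add_sub_cancel_left, Complex.norm_real, Real.norm_eq_abs, abs_of_nonneg (by positivity)]
    have : ((i : ℕ) : ℝ) ≤ n := by exact_mod_cast i.2.le
    nlinarith
  · rw [add_sub_add_left_eq_sub, ← Complex.ofReal_sub, Complex.norm_real, Real.norm_eq_abs,
      ← mul_sub, abs_mul, abs_of_pos hs0] at h
    have h1 : |((i : ℕ) : ℝ) - (i' : ℕ)| < 1 := by nlinarith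
    have h2 : |((i : ℕ) : ℤ) - (i' : ℕ)| < 1 := by exact_mod_cast h1
    have h3 := abs_lt.1 h2
    exact Fin.ext (by lia)

theorem bx_ball {a L : ℝ} (ha : 0 < a) (haL : a ≤ L / 4) (z : ℂ) (T : ℕ) :
    ∀ x ∈ bx (fl a z) (T * (⌈L / a⌉₊ + 1)), pt a x ∈ closedBall z (4 * (T + 1) * L) := by
  intro x hx
  rw [mem_bx] at hx
  have h1 := pt_sub_le ha (x := fl a z) (y := x) (m := T * (⌈L / a⌉₊ + 1))
    (abs_le.2 (by lia)) (abs_le.2 (by lia))
  have h2 := pt_fl_norm ha z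
  have h3 := norm_sub_le_norm_sub_add_norm_sub (pt a x) (pt a (fl a z)) z
  have h4 : a * (⌈L / a⌉₊ : ℝ) ≤ L + a := by
    have := (Nat.ceil_lt_add_one (show 0 ≤ L / a from div_nonneg (by linarith) ha.le)).le
    calc a * (⌈L / a⌉₊ : ℝ) ≤ a * (L / a + 1) := mul_le_mul_of_nonneg_left this ha.le
      _ = L + a := by field_simp
  have hT0 : (0 : ℝ) ≤ T := Nat.cast_nonneg T
  have h5 : a * ((T * (⌈L / a⌉₊ + 1) : ℕ) : ℝ) ≤ T * (2 * L) := by
    push_cast
    calc a * ((T : ℝ) * (⌈L / a⌉₊ + 1)) = T * (a * ⌈L / a⌉₊ + a) := by ring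
      _ ≤ _ := mul_le_mul_of_nonneg_left (by linarith) hT0
  rw [mem_closedBall, dist_eq_norm]
  linarith

/-- The disorder correlations of a small cluster hardly depend on the domain. -/
theorem sandwich {n : ℕ} (hn : Even n) {δ : ℝ} (hδ : 0 < δ) (hδ1 : δ ≤ 1) (z : ℂ) {ρ : ℝ}
    (hρ : 0 < ρ) : ∃ y : Fin n → ℂ, Function.Injective y ∧ (∀ i, y i ∈ closedBall z ρ) ∧
      ∀ᶠ a in 𝓝[>] (0 : ℝ), ∀ Λ Λ' : Finset Site, (∀ x, pt a x ∈ closedBall z ρ → x ∈ Λ) →
        (1 - δ) * MM Λ (fcs (srcs fun i => fl a (y i))) ≤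
          MM Λ' (fcs (srcs fun i => fl a (y i))) := by
  obtain ⟨T, hT⟩ := cluster hn hδ hδ1
  have hL0 : 0 < ρ / (4 * (T + 1)) := by positivity
  have hL1 : 4 * (T + 1) * (ρ / (4 * (T + 1))) = ρ := by field_simp
  generalize ρ / (4 * (T + 1)) = L at hL0 hL1
  have hT0 : (0 : ℝ) ≤ T := Nat.cast_nonneg T
  obtain ⟨y, s, hs0, hyz, hsep⟩ := pts n z hL0
  refine ⟨y, fun i i' e => hsep i i' (by rw [e]; simpa using hs0), fun i => ?_, ?_⟩
  · rw [mem_closedBall, dist_eq_norm]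
    nlinarith [hyz i]
  filter_upwards [ev_le (c := L / 4) (by positivity), ev_le (c := s / 8) (by positivity)]
    with a ⟨ha, k4⟩ ⟨_, k5⟩ Λ Λ' hΛ
  have hk : 4 ≤ ⌈L / a⌉₊ + 1 := by
    have h3 : (4 : ℝ) ≤ L / a := by rw [le_div_iff₀ ha]; linarith
    have : 4 ≤ ⌈L / a⌉₊ := by exact_mod_cast h3.trans (Nat.le_ceil _)
    lia
  refine hT (⌈L / a⌉₊ + 1) (fl a z) (fun i => fl a (y i)) Λ Λ' hk
    (fun i => bx_fl ha (hyz i)) (fun i i' hi => hsep i i' ?_) fun x hx => hΛ x ?_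
  · have := fl_near ha hi
    push_cast at this
    linarith
  · rw [← hL1]
    exact bx_ball ha k4 z T x hx

theorem fin_alg {δ c P M M' w : ℝ} (hδ : δ ≤ 1 / 2) (hP : 0 < P) (hM : 0 < M) (hw : 0 < w)
    (k1 : (1 - δ) * c < P / M * (w * M')) (k2 : (1 - δ) * (P / M * (w * M')) < c)
    (c1 : (1 - δ) * M ≤ M') (c2 : (1 - δ) * M' ≤ M) :
    (1 - δ) ^ 2 * c ≤ w * P ∧ (1 - δ) ^ 2 * (w * P) ≤ c := by
  have e : w * P = P / M * w * M := by field_simp
  have q0 : 0 < P / M * w := by positivity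
  have q1 := mul_le_mul_of_nonneg_left c1 q0.le
  have q2 := mul_le_mul_of_nonneg_left c2 q0.le
  have q3 : 0 < 1 - δ := by linarith
  have q4 := mul_le_mul_of_nonneg_left k1.le q3.le
  have q5 := mul_le_mul_of_nonneg_left q1 q3.le
  rw [e]
  constructor <;> linarith

/-- **The normalisation.** -/
theorem norm : SNorm := by
  classical
  intro D Λ hD hs hΛ hr X hX he
  rcases X.eq_empty_or_nonempty with rfl | ⟨z, hz⟩
  · refine ⟨1, one_pos, tendsto_const_nhds.congr fun a => ?_⟩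
    unfold Gn Mn MM
    simp [(QQ_pos (Λ a) 0).ne']
  obtain ⟨ρ, hρ, hb⟩ := nhds_basis_closedBall.mem_iff.1 (hD.mem_nhds (hX z hz))
  have hdia : ∀ w ∈ D, w ∈ Dia := fun w hw => ball_Dia (by
    have : ‖w‖ < 1 / 4 := by simpa using hs hw
    linarith)
  refine lim_of_mul fun δ hδ hδ1 => ?_
  obtain ⟨y, hinj, hy, hsw⟩ := sandwich he hδ (by linarith) z hρ
  obtain ⟨Y, hYD, hYc, hYm⟩ : ∃ Y : Finset ℂ, (∀ w ∈ Y, w ∈ D) ∧ Y.card = X.card ∧
      ∀ a, Y.val.map (fl a) = fcs (srcs fun i => fl a (y i)) := by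
    refine ⟨univ.image y, fun w hw => ?_, card_im ⟨_, 0, y, Fin.elim0, Fin.elim0⟩ hinj,
      Rp_eq ⟨_, 0, y, Fin.elim0, Fin.elim0⟩ hinj⟩
    obtain ⟨i, _, rfl⟩ := mem_image.1 hw
    exact hb (hy i)
  obtain ⟨r, hr0, hr1⟩ := hr X Y hX hYD hYc.symm he
  obtain ⟨g, hg0, hg1⟩ := H436.norm_even one_pos (H365.merge one_pos) H365.ratioM
    (quotSM one_pos kp) (X := Y) (fun w hw => hdia w (hYD w hw)) (by rw [hYc]; exact he)
  have hlim := hr1.mul hg1
  have hc : 0 < r * g := mul_pos hr0 hg0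
  have hc' : (1 - δ) * (r * g) < r * g := by nlinarith
  refine ⟨r * g, hc, ?_⟩
  filter_upwards [hlim.eventually (lt_mem_nhds hc'),
    (hlim.const_mul (1 - δ)).eventually (gt_mem_nhds hc'),
    hΛ.cpt (isCompact_closedBall z ρ) hb, hsw, self_mem_nhdsWithin] with a k1 k2 k3 k4 ha
  have ha : 0 < a := ha
  have c1 := k4 (Λ a) (disc Dia a) k3
  have c2 := k4 (disc Dia a) (Λ a) fun x hx =>
    (mem_disc H436.Dia_bounded ha x).2 (hdia _ (hb hx))
  unfold H436.Gn H436.Mn Mn at k1 k2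
  rw [hYm, hYc] at k1 k2
  exact fin_alg hδ1 (MM_pos _ _) (MM_pos _ _) (Real.rpow_pos_of_pos ha _) k1 k2 c1 c2

end Vale.Agent.P144Q.A
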